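import Vale.Agent.P352X.EH.FS
import Vale.Agent.P352X.EH.OPS
import Vale.Agent.P352X.EG.MU2
import Vale.Agent.P352X.R.JC.A2

/-!
# P352X, block EH, row AFW: the new fields are affiliated to the algebras of the wedges
-/

set_option linter.all false

open MeasureTheory Filter Topology
open scoped SchwartzMap ComplexConjugate ContDiff

namespace Vale.Agent.P352X.EG.H

open Vale.Agent.P352X.EB

open Vale.Agent.P352 Vale.Agent.P352.GF Vale.Agent.P352.BW Vale.Agent.P352.H246
open Vale.Agent.P352.H496 Vale.Agent.P352X.EG.MU2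
open UniformSpace (Completion)
open Bornology (IsBounded)

variable {D : Type*} [NormedAddCommGroup D] [InnerProductSpace ℂ D] {c : Cg D} {Λ : Type*}
  {a b y : V}

namespace Afw

lemma wg (s : SG c) (ha : IsNull a) (hb : IsNull b) (h : GF.mdot a b = 1) (y : V) :
    ∃ g : Sh c, g.act ⁻¹' W0 = Wdg a b y := by
  obtain ⟨L, hL, e⟩ := JCa.trans ha hb (h ▸ one_pos)
  let k : Sh c := ⟨⟨1, L, y, one_pos, hL⟩, false⟩
  refine ⟨k.inv, (e y).1 ▸ Set.ext fun x => ⟨fun hx => ⟨_, hx, s.act_inv k x⟩, ?_⟩⟩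
  rintro ⟨z, hz, rfl⟩
  show k.inv.act (k.act z) ∈ W0
  rwa [s.inv_act]

lemma big (ha : IsNull a) (hb : IsNull b) (h : GF.mdot a b = 1) (y : V) {K : Set V}
    (hK : IsBounded K) : ∃ y', K ∪ Wdg a b y ⊆ Wdg a b y' := by
  have ct : ∀ a, Continuous fun x => |GF.mdot a (x - y)| := fun a => by
    unfold GF.mdot
    fun_prop
  obtain ⟨t, ht⟩ := hK.isCompact_closure.bddAbove_image ((ct a).add (ct b)).continuousOn
  refine ⟨y - (-(|t| + 1)) • b - (|t| + 1) • a, fun x hx => ?_⟩
  have e : x - (y - (-(|t| + 1)) • b - (|t| + 1) • a) =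
      x - y + (-(|t| + 1)) • b + (|t| + 1) • a := by abel
  show _ ∧ _
  rw [e, O649.md_comb, O649.md_comb, ha.1, hb.1, O649.md_comm b a, h]
  have := le_abs_self t
  have := abs_nonneg t
  rcases hx with hx | hx
  · have h1 : _ + _ ≤ t := ht ⟨x, subset_closure hx, rfl⟩
    have h2 := abs_nonneg (GF.mdot a (x - y))
    have h3 := abs_nonneg (GF.mdot b (x - y))
    constructor <;> linarith [le_abs_self (GF.mdot a (x - y)), neg_abs_le (GF.mdot b (x - y))]
  · constructor <;> linarith [hx.1, hx.2]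

lemma cm (s : SG c) {g : Sh c} {Z : Completion D →L[ℂ] Completion D}
    (h : Z ∈ (c.N (g.act ⁻¹' W0)).commutant) : Cm c g Z := by
  have := conj_comm (U := star (g.U c)) (Unitary.star_mem (s.uni g))
    (fun X hX => by rw [star_star]; exact s.back g X hX) h
  rwa [star_star] at this

lemma weak (t : E0 c) (m : MU1 c) (ha : IsNull a) (hb : IsNull b) (h : GF.mdot a b = 1)
    {K : Set V} {ξ ξ' η θ : Completion D} (hK : IsBounded K) (hW : K ⊆ Wdg a b y)
    (l : Loc c K ξ ξ') (h1 : D1 c η) (h2 : D1 c θ) {Y : Completion D →L[ℂ] Completion D}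
    (hY : Y ∈ (c.N (Wdg a b y)).commutant) :
    inner ℂ (ml c ξ θ) (Y η) = inner ℂ θ (Y (ml c ξ' η)) := by
  have s := t.sg
  obtain ⟨B, hB, q⟩ := (evC m s ⟨K, hK, l⟩ h1).and (evC m s (lsymm m ⟨K, hK, l⟩) h2)
  obtain ⟨y', e⟩ := big ha hb h y hB
  obtain ⟨g, eg⟩ := wg s ha hb h y'
  obtain ⟨g0, e0⟩ := wg s ha hb h y
  rw [← eg] at e
  obtain ⟨⟨p, p1, p2, p3⟩, d, d1, d2, d3⟩ := q g fun x hx => e (.inl hx)
  have ad : g.Adm (Wdg a b y) := fun x hx => e (.inr hx)
  have pr := t.stb.pr _ _ _ _ (l g0 fun x hx => by have := hW hx; rwa [← e0] at this)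
  have k : ∀ n j, inner ℂ (d j ξ') (Y (p n c.Om)) = inner ℂ (d j c.Om) (Y (p n ξ)) := fun n j => by
    have := prg s pr (cm s (e0 ▸ mul_mem (star_mem (mul_mem hY ((p1 n).comm s ad)))
      ((d1 j).comm s ad)))
    rw [star_mul (star _), star_star, ContinuousLinearMap.mul_apply, ContinuousLinearMap.mul_apply,
      star_inner, inner_star] at this
    exact this.symm
  have yc := fun z => Y.continuous.tendsto z
  exact tendsto_nhds_unique (d3.inner tendsto_const_nhds) ((d2.inner tendsto_const_nhds).congr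
    fun j => tendsto_nhds_unique (tendsto_const_nhds.inner ((yc _).comp p3))
      ((tendsto_const_nhds.inner ((yc _).comp p2)).congr fun n => k n j))

end Afw

open Afw Fs

theorem afw_row {x : Lt c Λ} (t : E1 x) (m : MU1 c) (e : EXT x) (F : FS x) : AFW x := by
  intro a b y l f ha hb h hf Y hY v w
  have tb := Ap.test_bar hf.1
  have z : ∀ l f, x.o l f 0 = 0 := fun l f => by simpa using F.smul l f 0 0
  induction v using Fs.ind with
  | h0 => simp [z]
  | h1 v v' p q => rw [F.add]; simp only [Submodule.coe_add, map_add, inner_add_right, p, q]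
  | h2 z v p => rw [F.smul]; simp only [Submodule.coe_smul, map_smul, inner_smul_right, p]
  | h3 u hu =>
  induction w using Fs.ind with
  | h0 => simp [z]
  | h1 v v' p q => rw [F.add]; simp only [Submodule.coe_add, inner_add_left, p, q]
  | h2 z v p => rw [F.smul]; simp only [Submodule.coe_smul, inner_smul_left, p]
  | h3 u' hu' =>
  rw [F.oW _ _ u' _ tb hu' rfl, F.oW _ _ u _ hf.1 hu rfl]
  have yc := fun z => Y.continuous.tendsto z
  refine tendsto_nhds_unique ((lim1 e _ tb hu').inner ((yc _).comp (e.lim u hu)))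
    (((e.lim u' hu').inner ((yc _).comp (lim1 e _ hf.1 hu))).congr fun R => ?_)
  have i := t.ana.inn R f hf.1
  have := weak t.toE0 m ha hb h (Ops.bdd_supp i) (i.2.2.trans (Set.inter_subset_left.trans hf.2.2))
    (Ops.loc_phi t.toE0 x l (Ops.in_self i)) (d_cut t R hu) (d_cut t R hu') hY
  simp only [Function.comp_apply, Lt.op, x.dag2, ← bar_cut, Ap.bar_bar]
  exact this.symm

end Vale.Agent.P352X.EG.H
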