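import Vale.Agent.P352X.EG.Pub
import Vale.Agent.P352X.CL.Pub0

namespace Vale.Agent.P352X

open P352 GF H246 SubConf H496

variable {D H : Type*} [NormedAddCommGroup D] [InnerProductSpace ℂ D] [NormedAddCommGroup H]
  [InnerProductSpace ℂ H] [CompleteSpace H]

/-- The fields of `Q`, whose domain is embedded in the Hilbert space `H` by `i`, smeared in a wedge
`W`, are affiliated to `N W`: they commute weakly with the commutant of `N W`. -/
def AfW (N : Set V → VonNeumannAlgebra H) (Q : Theory D) (i : D → H) : Prop :=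
  ∀ a b y B B' f, IsNull a → IsNull b → mdot a b = 1 → Q.fld B → IsAdj B B' → In (Wdg a b y) f →
    ∀ Y ∈ (N (Wdg a b y)).commutant, ∀ v w,
      inner ℂ (i (B' (bar f) w)) (Y (i v)) = inner ℂ (i w) (Y (i (B f v)))

end Vale.Agent.P352X
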