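import Vale.Agent.P352X.EH.Defs
import Vale.Agent.P352X.EG.FSG
import Vale.Agent.P352X.CL.FL

/-!
# P352X, block EH: the stress tensor of dimension four, multiplets with parity
-/

set_option linter.all false

open Filter Topology
open scoped ComplexConjugate

namespace Vale.Agent.P352X.EG.H

open Vale.Agent.P352 Vale.Agent.P352.GF Vale.Agent.P352.H15 Vale.Agent.P352.H755
open Vale.Agent.P352.H496 Vale.Agent.P352X.Fss Vale.Agent.P352X.EG.Fsg
open Vale.Agent.P352.SubConf (IsAdj)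
open Complex (I)

noncomputable section

variable {D : Type*} [NormedAddCommGroup D] [InnerProductSpace ℂ D] {c : Cg D}
  {T : Ix → Ix → Fld D} {B : Fld D} {f : Fn} {s : ℝ} {F : Finset (ℂ × ℕ)} {C : ℂ × ℕ → Fld D}

lemma dl_pch (hT : Stress0 c.Q T) (hs : 0 < s) (hP : ND.PCh c.Q T c.A) (h : Scl c.Q B F C)
    {G : ℝ → Fn} (hG : IsCutoff G) {X : V → V}
    (hX : IsSim 0 X) (hf : IsTest f) (hc : HasCompactSupport f) (v w : D) :
    Tendsto (fun r => inner ℂ w (ND.cur (fun m n => dl c.Q s hs (T m n)) X (G r) (B f v) -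
      B f (ND.cur (fun m n => dl c.Q s hs (T m n)) X (G r) v))) atTop
      (𝓝 (inner ℂ w (c.A X (B f v) - B f (c.A X v)))) := by
  have R := m1 c
  have hb := fun m n => c.Q.bose_fld _ (hT.bose m n)
  have s0 : (s : ℂ) ≠ 0 := Complex.ofReal_ne_zero.2 hs.ne'
  set X' : V → V := fun z => s⁻¹ • X (s • z) with hX'
  obtain ⟨y, w', h1, h2⟩ := id hX
  have h3 : ∀ z n, X' z n = (s⁻¹ • y) n + 0 * z n + ∑ m, z m * w' m n := fun z n => by
    simp only [hX', Pi.smul_apply, h2, smul_eq_mul, mul_assoc, ← Finset.mul_sum]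
    field_simp
  have hX1 : IsSim 0 X' := ⟨_, w', h1, h3⟩
  have eP : ∀ z, u c.Q s hs (Fsg.gen c hX1 (u c.Q s⁻¹ (inv_pos.2 hs) z)) = c.A X z := fun z => by
    refine (conj_dil hs h1 (X := X) (by rw [smul_inv_smul₀ hs.ne']; exact h2) h3 _).trans ?_
    rw [Fss.G.u_inv R hs z]
  have l := tendsto_finset_sum F fun d _ => (hP _ X' _ _ (u c.Q s⁻¹ (inv_pos.2 hs) v)
    (u c.Q s⁻¹ (inv_pos.2 hs) w) (cut_ds hG hs) hX1 (h.1 d).1 (ds_test hs hf)
    (ds_cpt hs hc)).const_mul (CL.zz s d)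
  convert l.congr' ((isTest_cutoff hG).mono fun r hr => ?_) using 2
  · rw [← eP, ← eP]
    exact CL.comm h R hs hf (Fsg.gen c hX1) v w
  · have ht : IsTest fun x => (s : ℂ) * ds s (G r) x := Ap.sw_cmul s (ds_test hs hr)
    have e : ∀ z, ND.cur (fun m n => dl c.Q s hs (T m n)) X (G r) z =
        u c.Q s hs (curL hb hX1 ht (u c.Q s⁻¹ (inv_pos.2 hs) z)) := fun z => by
      rw [curL_apply, ND.cur, ND.cur, map_sum]
      refine Finset.sum_congr rfl fun n _ => ?_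
      rw [Fss.dl]
      congr 2
      funext x
      simp only [ds_apply, hX', Pi.smul_apply, smul_eq_mul]
      push_cast
      field_simp
    rw [e, e, CL.comm h R hs hf]
    simp only [curL_apply]

lemma st (T : Ix → Ix → Fld D) (hF : FSL c.Q) (hN : NoLog c.Q T) (hT : Stress0 c.Q T)
    (hP : ND.PCh c.Q T c.A) : ∃ T', c.Q.IsStress T' ∧ ND.PCh c.Q T' c.A := by
  classical
  obtain ⟨T', h1, h2, -⟩ := CL.fssL (m1 c) hF hT hN
  refine ⟨T', h1, fun G X B f v w hG hX hB hf hc' => ?_⟩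
  choose F C h4 hd he using h2
  obtain ⟨S, a, ha⟩ := CL.vg (Finset.univ.biUnion fun p : Ix × Ix => F p.1 p.2) (4, 0)
  have hs : ∀ m n, F m n ⊆ Finset.univ.biUnion fun p : Ix × Ix => F p.1 p.2 := fun m n d hd =>
    Finset.mem_biUnion.2 ⟨(m, n), Finset.mem_univ _, hd⟩
  have c1 : ∑ t ∈ S, a t = 1 := by simpa [CL.pg, CL.ph] using ha _ (hs o o (h4 o o))
  have fm : ∀ m n f v, IsTest f → T' m n f v =
      ∑ t ∈ S, a t • dl c.Q _ (Real.exp_pos t) (T m n) f v := fun m n f v hf => by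
    rw [he]
    exact CL.sfm (hd m n) (m1 c) (h4 m n) (fun d hd => ha d (hs m n hd)) hf v
  obtain ⟨F', C', b⟩ := hF B hB
  have := tendsto_finset_sum S fun t _ =>
    (dl_pch hT (Real.exp_pos t) hP b hG hX hf hc' v w).const_mul (a t)
  rw [← Finset.sum_mul, c1, one_mul] at this
  refine this.congr' ((isTest_cutoff hG).mono fun r hr => ?_)
  have e : ∀ z, ND.cur T' X (G r) z = ∑ t ∈ S, a t •
      ND.cur (fun m n => dl c.Q _ (Real.exp_pos t) (T m n)) X (G r) z := fun z => by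
    simp only [ND.cur, fun n => fm o n _ z (test_sim0 hX hr n), Finset.smul_sum]
    exact Finset.sum_comm
  simp only [e, ← fl_apply hB hf, map_sum, map_smul, ← Finset.sum_sub_distrib, ← smul_sub,
    inner_sum, inner_smul_right]

lemma padj (t : E0 c) {e : Bool} {k : Rp} {Φ : Fin k.n → Fld D} (h : Mp c e k Φ) :
    ∃ Φ' : Fin k.n → Fld D, Mp c e (cj k) Φ' ∧ ∀ a, IsAdj (Φ a) (Φ' a) := by
  choose Φ' h1 h2 using fun a => c.Q.adj _ (h.mf.1 a)
  exact ⟨Φ', ⟨t.bas.madj k Φ Φ' h.mf fun a => ⟨h1 a, h2 a⟩,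
    fun a => t.bas.padj e _ _ (h2 a) (h.par a)⟩, h2⟩

lemma comps (t : E0 c) {k : Rp} {Φ : Fin k.n → Fld D} (h : IsMf c.Q k Φ) (a : Fin k.n) :
    ∃ p : Bool → Lb c, ∀ f v, IsTest f → Φ a f v = ∑ e, (p e).B f v := by
  choose P h1 h2 h3 h4 using fun a => parts t (h.1 a)
  have hm : ∀ e, Mp c e k fun a => P a e := fun e => by
    refine ⟨⟨fun a => ?_, fun a L f v hL hf => ?_⟩, fun a f v hf => ?_⟩
    · cases e
      exacts [c.Q.bose_fld _ (h1 a), (h2 a).1]
    · let W : D →ₗ[ℂ] D := ⟨⟨c.Q.U 1 L 0, U_add one_pos hL 0⟩, U_smul one_pos hL 0⟩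
      have hW : ∀ z, gl t (W z) = W (gl t z) := fun z => (c.hN.GU 1 L 0 z one_pos hL).symm
      have t1 := Ap.test_sim one_pos hL 0 hf
      have e1 : ∀ z, Φ a f (c.Q.U 1 L 0 z) =
          ∑ b, k.ρ L b a • W (Φ b (fun x => f (sim 1 L 0 x)) z) := fun z => h.2 a L f z hL hf
      show _ = ∑ b, _ • W _
      simp only [h4 _ _ _ _ t1, h4 a e f _ hf, ← c.hN.GU 1 L 0 v one_pos hL, e1, map_sum, map_smul,
        map_add, hW, Finset.smul_sum, ← Finset.sum_add_distrib]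
      exact Finset.sum_congr rfl fun b _ => by module
    · cases e
      · rw [c.hN.bose _ f v (h1 a) hf]; simp [sg]
      · exact ((h2 a).2 f v hf).trans (by simp [sg])
  choose Φ' a1 a2 using fun e => padj t (hm e)
  exact ⟨fun e => ⟨P a e, Φ' e a, e, ⟨k, _, a, hm e, rfl⟩, ⟨cj k, _, a, a1 e, rfl⟩, a2 e a,
    H755.adj_symm (a2 e a)⟩, h3 a⟩

lemma md (t : E0 c) (h : MfAll c.Q) : MdAll c := fun B hB => by
  obtain ⟨n, B', h1, h2⟩ := h B hB
  choose k Φ a hΦ e using h1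
  choose p hp using fun i => comps t (hΦ i) (a i)
  let E := Fintype.equivFin (Fin n × Bool)
  refine ⟨_, fun j => p (E.symm j).1 (E.symm j).2, fun f v hf => ?_⟩
  rw [h2 f v hf, E.symm.sum_comp fun q => (p q.1 q.2).B f v, Fintype.sum_prod_type]
  exact Finset.sum_congr rfl fun i _ => by rw [e, hp i f v hf]

end

end Vale.Agent.P352X.EG.H
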