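import Vale.Agent.P352X.EH.FSG
import Vale.Agent.P352X.EG.LET

/-!
# P352X, block EH, row LET: the letters
-/

set_option linter.all false

open MeasureTheory Filter Topology
open scoped SchwartzMap ComplexConjugate ContDiff

namespace Vale.Agent.P352X.EG.H

open Vale.Agent.P352X.EB

open Vale.Agent.P352 Vale.Agent.P352.GF Vale.Agent.P352.BW Vale.Agent.P352.H246
open Vale.Agent.P352.H496 Vale.Agent.P352.H755 Vale.Agent.P352.H15
open Vale.Agent.P352.SubConf (IsAdj)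
open UniformSpace (Completion)

noncomputable section

variable {D : Type*} [NormedAddCommGroup D] [InnerProductSpace ℂ D] {c : Cg D}

namespace Le

/-- a covariance relation -/
def Rel (s : ℝ) (L : Ix → V) (a : V) (B : Fld D) {ι : Type} [Fintype ι] (κ : ι → ℂ)
    (q : ι → Lb c) : Prop := ∀ f v, IsTest f → B f (c.Q.U s L a v) =
  ∑ i, κ i • c.Q.U s L a ((q i).B (fun x => f (sim s L a x)) v)

/-- the similitudes as linear maps -/
def ul (c : Cg D) (g : Sg) : D →ₗ[ℂ] D :=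
  ⟨⟨c.Q.U g.s g.L g.a, U_add g.hs g.hL g.a⟩, U_smul g.hs g.hL g.a⟩

lemma Rel.fin {s L a} {B : Fld D} {ι : Type} [Fintype ι] {κ : ι → ℂ} {q : ι → Lb c}
    (h : Rel s L a B κ q) : Rel s L a B (fun i => κ ((Fintype.equivFin ι).symm i))
      fun i => q ((Fintype.equivFin ι).symm i) := fun f v hf => by
  rw [h f v hf, (Fintype.equivFin ι).symm.sum_comp fun i =>
    κ i • c.Q.U s L a ((q i).B (fun x => f (sim s L a x)) v)]

lemma zz_le {s : ℝ} (hs : 1 ≤ s) (p : ℂ × ℕ) {e : ℕ} (h : ⌈(4 - p.1).re⌉₊ + p.2 ≤ e) :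
    ‖CL.zz s p‖ ≤ s ^ e := by
  have h0 := one_pos.trans_le hs
  have := Real.log_nonneg hs
  rw [CL.zz, norm_mul, Complex.norm_cpow_eq_rpow_re_of_pos h0, norm_pow, Complex.norm_real,
    Real.norm_of_nonneg this]
  refine le_trans ?_ (pow_le_pow_right₀ hs h)
  rw [pow_add, ← Real.rpow_natCast s ⌈_⌉₊]
  exact mul_le_mul (Real.rpow_le_rpow_of_exponent_le hs (Nat.le_ceil _))
    (pow_le_pow_left₀ this ((Real.log_le_sub_one_of_pos h0).trans (by linarith)) _)
    (by positivity) (by positivity)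

lemma scl (hF : FSL c.Q) (hD : MdAll c) {B : Fld D} (hB : c.Q.fld B) :
    ∃ (e : ℕ) (ι : Type) (_ : Fintype ι) (q : ι → Lb c) (κ : ℝ → ι → ℂ),
      (∀ s, 1 ≤ s → ∀ i, ‖κ s i‖ ≤ s ^ e) ∧ ∀ s, 0 < s → Rel s GF.one 0 B (κ s) q := by
  obtain ⟨F, C, h⟩ := hF B hB
  choose n q hq using fun p => hD _ (h.1 p).1
  refine ⟨F.sup fun p => ⌈(4 - p.1).re⌉₊ + p.2, Σ p : F, Fin (n p), inferInstance,
    fun i => q i.1 i.2, fun s i => CL.zz s i.1, fun s hs i => zz_le hs _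
      (Finset.le_sup (f := fun p : ℂ × ℕ => ⌈(4 - p.1).re⌉₊ + p.2) i.1.2), fun s hs f v hf => ?_⟩
  rw [h.2 s f v hs hf, Fintype.sum_sigma, ← Finset.sum_coe_sort]
  refine Finset.sum_congr rfl fun p _ => ?_
  rw [hq p _ v (Ap.test_sim hs H496.isLor_one 0 hf)]
  exact (congrArg _ (map_sum (ul c ⟨s, _, 0, hs, H496.isLor_one⟩) _ _)).trans Finset.smul_sum

lemma cov (hF : FSL c.Q) (hD : MdAll c) {e : Bool} {B : Fld D} (h : Cmp c e B) (g : Sg) :
    ∃ (ι : Type) (_ : Fintype ι) (κ : ι → ℂ) (q : ι → Lb c), Rel g.s g.L g.a B κ q := by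
  obtain ⟨k, Φ, μ, h, rfl⟩ := h
  choose _ ι _ q κ _ hq using fun ν => scl hF hD (h.mf.1 ν)
  refine ⟨Σ ν, ι ν, inferInstance, fun i => k.ρ g.L i.1 μ * κ i.1 g.s i.2, fun i => q i.1 i.2,
    fun f v hf => ?_⟩
  have o := H496.isLor_one
  have R := Fsg.m1 c
  have e : ∀ v, c.Q.U g.s g.L g.a v = ul c ⟨1, _, g.a, one_pos, o⟩ (ul c ⟨1, g.L, 0, one_pos, g.hL⟩
      (c.Q.U g.s GF.one 0 v)) := fun v => by
    refine (Fss.G.U_dil R g.hs g.hL g.a v).2.symm.trans (Eq.trans ?_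
      (R 1 _ g.a 1 g.L 0 _ one_pos one_pos o g.hL (.inl rfl)).symm)
    simp only [Fss.sim_dil, zero_add, one_smul, smul_zero, add_zero, mul_one]
    rfl
  have f1 := Ap.test_sim one_pos o g.a hf
  have f2 := Ap.test_sim one_pos g.hL 0 f1
  simp only [e]
  refine (c.Q.transl _ g.a f _ (h.mf.1 μ) hf).trans ?_
  refine (congrArg _ (h.mf.2 μ g.L _ _ g.hL f1)).trans ?_
  rw [Fintype.sum_sigma]
  refine (map_sum (ul c ⟨1, _, g.a, one_pos, o⟩) _ _).trans (Finset.sum_congr rfl fun ν _ => ?_)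
  rw [hq ν g.s g.hs _ v f2, map_smul]
  show _ • ul c _ (ul c ⟨1, g.L, 0, one_pos, g.hL⟩ _) = _
  simp only [map_sum, map_smul, Finset.smul_sum, smul_smul]
  refine Finset.sum_congr rfl fun i _ => ?_
  congr 5
  funext x
  rw [N86.c1_sim g.s g.L g.a, Fss.sim_dil, Fss.sim_dil, one_smul, zero_add]
  congr 2
  funext n
  simp [sim, Finset.mul_sum, mul_assoc]

lemma fld {e : Bool} {B : Fld D} (h : Cmp c e B) : c.Q.fld B := by
  obtain ⟨k, Φ, μ, h, rfl⟩ := h
  exact h.mf.1 μ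

lemma par {e : Bool} {B : Fld D} (h : Cmp c e B) : Pa c e B := by
  obtain ⟨k, Φ, μ, h, rfl⟩ := h
  exact h.par μ

lemma vac (t : E0 c) (g : Sg) {n : ℕ} {κ : Fin n → ℂ} {B : Fld D} {C : Fin n → Fld D} {f : Fn}
    (h : B f (c.Q.U g.s g.L g.a c.Q.vac) =
      ∑ i, κ i • c.Q.U g.s g.L g.a (C i (fun x => f (sim g.s g.L g.a x)) c.Q.vac)) :
    ((B f c.Q.vac : D) : Completion D) =
      ∑ i, κ i • Ug c.Q g.s g.L g.a (C i (g.pull f) c.Q.vac : D) := by
  rw [c.Q.U_vac _ _ _ g.hs g.hL] at h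
  rw [h, ← Completion.coe_toComplL (𝕜 := ℂ), map_sum]
  refine Finset.sum_congr rfl fun i _ => ?_
  rw [map_smul, Completion.coe_toComplL, t.sg.coe _ _ _ _ g.hs g.hL]
  rfl

/-- the adjoint label -/
def dg : Lab c → Lab c
  | none => none
  | some p => some ⟨p.B', p.B, p.e, p.h', p.h, p.a', p.a⟩

/-- the vectors of a label -/
def ph (l : Fn → Completion D) : Lab c → Fn → Completion D
  | none => l
  | some p => fun f => (p.B f c.Q.vac : D)

/-- the parity of a label -/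
def pr : Lab c → Bool
  | none => false
  | some p => p.e

end Le

open Le

theorem let_row (t : E0 c) (hF : FSL c.Q) (hD : MdAll c) (T : Ix → Ix → Fld D) : LET c T := by
  intro l hl hf
  have o := H496.isLor_one
  refine ⟨⟨Le.dg, Le.ph l, Le.pr, ?_, ?_, ?_, ?_, ?_, ?_, ?_, ?_, ?_⟩, ?_, rfl, rfl, fun p => ?_⟩
  · rintro (_ | p) <;> rfl
  · rintro (_ | p) <;> rfl
  · rintro (_ | p) f h0
    · exact (hl.gam f h0).trans (one_smul _ _).symm
    · exact t.bas.pvac p.e _ f (par p.h) h0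
  · rintro (_ | p) f g z h1 h2
    · exact hl.lin f g z h1 h2
    · show ((_ : D) : Completion D) = (_ : D) + z • ((_ : D) : Completion D)
      rw [c.Q.lin _ f g z _ (fld p.h) h1 h2, Completion.coe_add, Completion.coe_smul]
  · rintro (_ | p)
    · exact hl.cont
    · exact (Completion.continuous_coe D).comp (c.Q.cont _ _ (fld p.h))
  · rintro (_ | ⟨B, B', e, ⟨k, Φ, μ, h, rfl⟩, h1, h2, h3⟩) f h0
    · exact hl.st f h0
    · obtain ⟨Φ', a, b⟩ := padj t h
      show Stm _ _ ((Φ μ f c.Q.vac : D) : Completion D) (B' (bar f) c.Q.vac : D)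
      rw [Let.adj_uniq h2 (b μ) (Ap.test_bar h0.1)]
      exact hf e k Φ Φ' h.mf h.par (fun μ => ⟨a.mf.1 μ, b μ⟩) μ f h0
  · rintro (_ | p) g
    · refine ⟨1, fun _ => ((g.s ^ 2 : ℝ) : ℂ), fun _ => none, fun f h0 => ?_⟩
      simp only [Fin.sum_univ_one, Complex.conj_ofReal]
      exact ⟨Let.pot t hl g h0, Let.pot t hl g h0⟩
    · obtain ⟨ι, _, κ, q, h⟩ := Le.cov hF hD p.h g.toSg
      let E := (Fintype.equivFin ι).symm
      have hg := fun f => t.sg.test g f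
      refine ⟨_, fun i => κ (E i) * sg (g.e && (q (E i)).e), fun i => some (q (E i)),
        fun f h0 => ⟨(vac t g.toSg (h.fin f _ h0)).trans ?_, (vac t g.toSg (t.bas.sadj _ _ _ _ _ _
          p.B' _ (fun i => (q (E i)).B') g.hs g.hL p.a (fun i => (q _).a) h.fin f _ h0)).trans ?_⟩⟩
      · exact Finset.sum_congr rfl fun i _ => by
          rw [Let.tw t.sg g (t.bas.pvac _ _ _ (par (q _).h) (hg f h0)), smul_smul]; rfl
      · refine Finset.sum_congr rfl fun i _ => ?_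
        have sc : ∀ e, conj (sg e) = sg e := fun e => by cases e <;> simp [sg]
        rw [Let.tw t.sg g (t.bas.pvac _ _ _ (par (q _).h') (hg f h0)), smul_smul, map_mul, sc]
        rfl
  · rintro (_ | p) y f h0
    · simpa using! hl.cov 1 GF.one y f one_pos o h0
    · exact Let.tra t (fld p.h) y h0
  · rintro (_ | p)
    · refine ⟨2, 1, fun _ => none, fun s hs => ⟨fun _ => ((s ^ 2 : ℝ) : ℂ),
        fun _ => by simp [abs_of_pos (one_pos.trans_le hs)], fun f h0 => ?_⟩⟩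
      rw [Fin.sum_univ_one, Complex.conj_ofReal]
      exact hl.cov s GF.one 0 f (one_pos.trans_le hs) o h0
    · obtain ⟨e, ι, _, q, κ, h1, h2⟩ := scl hF hD (fld p.h)
      let E := (Fintype.equivFin ι).symm
      refine ⟨e, _, fun i => some (q (E i)), fun s hs => ⟨fun i => κ s (E i), fun i => h1 s hs _,
        fun f h0 => ?_⟩⟩
      have s0 := one_pos.trans_le hs
      exact vac t ⟨s, _, 0, s0, o⟩ (t.bas.sadj _ _ _ _ _ _ p.B' _ (fun i => (q (E i)).B') s0 o p.a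
        (fun i => (q _).a) (h2 s s0).fin f _ h0)
  · rfl
  · exact ⟨⟨fld p.h, fld p.h', p.a, fun _ _ => ⟨rfl, rfl⟩⟩, Option.some_ne_none _⟩

end

end Vale.Agent.P352X.EG.H
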