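import Vale.Agent.P352X.EG.W
import Vale.Agent.P352X.EH.AFW
import Vale.Agent.P352X.EH.CV
import Vale.Agent.P352X.EH.DS
import Vale.Agent.P352X.EH.EXT
import Vale.Agent.P352X.EH.FIN
import Vale.Agent.P352X.EH.JB
import Vale.Agent.P352X.EH.LET
import Vale.Agent.P352X.EH.TMP

/-!
# P352X, block EH: the wiring
-/

set_option linter.all false

open Filter Topology
open scoped ComplexConjugate

namespace Vale.Agent.P352X.EG.H

open Vale.Agent.P352X.EB

open Vale.Agent.P352 Vale.Agent.P352.GF Vale.Agent.P352.BW Vale.Agent.P352.H246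
open Vale.Agent.P352.H496 Vale.Agent.P352.H755 Vale.Agent.P352.H15
open Vale.Agent.P352.SubConf (IsAdj)
open UniformSpace (Completion)

noncomputable section

variable {D : Type*} [NormedAddCommGroup D] [InnerProductSpace ℂ D]

theorem fin_thm (c : Cg D) {T : Ix → Ix → Fld D} (hT : c.Q.IsStress T) (hA : ND.PCh c.Q T c.A)
    (hF : FSL c.Q) (hD : MdAll c) (hU : UVac c.Q) (hE : EBd c.Q) :
    ∃ l, Pot c T l ∧ FIN c T l := by
  have t := e0_thm c
  have w0 := wc_row t T (gr_row t) hE hT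
  obtain ⟨E, q, τ, a, j, hS⟩ := sec_row t T hT hA hU hE (w0.pj _)
  obtain ⟨N, hN, hL⟩ := nb_row t T E q τ a j (lift_row _ _) (bic_row E) w0 hS
  obtain ⟨l, hl⟩ := pot_row t T E q τ a j N hS hN hL
  obtain ⟨x, h0, h1, hp, h2⟩ := let_row t hF hD T l hl
    (stf_row t rpx_row (bws_row t rpx_row (og_row c) (sst_row _)) (mb_row t hE))
  have t1 : E1 x := { t with ops := ops_row t (mu1_row t) (mu2_row t (mu1_row t)) x }
  have e := ext_row t1 (tmp_row t1 (jb_row t1))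
  have w := wp_row t1 e
  have v := cv_row t1 e w (fs_row w)
  exact ⟨l, hl, fin_row t hT hD hl x h0 h1 hp h2 (afw_row t1 (mu1_row t) e (fs_row w)) t1.ops e w
    (fs_row w) v (rec_row t (fs_row w) v)⟩

section ext

variable {c : Cg D} {D' : Submodule ℂ (Completion D)} {Q' : Theory D'} {G' : D' → D'}
  {e : Fld D → Fld D'} (t : E0 c) (E : ExtG c.Q c.Γ Q' G' e) {Q'' : Theory D'} (n : IsEnl Q' Q'')
include t E n

/-- scaling laws pass to the extension -/
theorem ext_scl {B : Fld D} (hB : c.Q.fld B) {F : Finset (ℂ × ℕ)} {C : ℂ × ℕ → Fld D}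
    (h : Scl c.Q B F C) (hb : Q''.bose (e B) → c.Q.bose B) : Scl Q'' (e B) F fun p => e (C p) := by
  refine ⟨fun p => ⟨n.fld _ (E.fld _ (h.1 p).1), fun b => n.bose _ (E.bos _ ((h.1 p).2 (hb b)))⟩,
    fun s f v hs hf => ?_⟩
  let q := F.equivFin.symm
  rw [n.U, ← Finset.sum_coe_sort, ← q.sum_comp]
  exact ext_cov t E hs H496.isLor_one hB (fun i => (h.1 _).1) (fun g w hg => by
    rw [h.2 s g w hs hg, ← Finset.sum_coe_sort, ← q.sum_comp]) hf v

theorem desc_cmp (hF : FSL c.Q) (g : Gr Q'' G') {τ : Ix → Ix → Fld D'}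
    (h : ∀ (p : Bool) (k : Rp) (Φ : Fin k.n → Fld D') μ, (∀ ν, ∃ F B, Scl Q'' (Φ ν) F B) →
      IsMl Q'' k Φ → (∀ a, if p then Fer Q'' G' (Φ a) else Q''.bose (Φ a)) →
      DescS Q'' G' τ p (Φ μ)) {p : Bool} {C : Fld D} (hC : Cmp c p C) :
    ∃ C', DescS Q'' G' τ p C' ∧ ∀ f v, IsTest f → e C f v = C' f v := by
  obtain ⟨k, Φ, a, m, rfl⟩ := hC
  have key : ∀ b, ∃ B, c.Q.fld B ∧ (if p then Fer Q'' G' (e B) else Q''.bose (e B)) ∧
      (∀ f v, IsTest f → Φ b f v = B f v) ∧ ∃ F C, Scl Q'' (e B) F C := fun b => by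
    cases p
    · obtain ⟨B, h1, h2⟩ := Bas.even (m.mf.1 b) (m.par b)
      obtain ⟨F, C, h3⟩ := hF B (c.Q.bose_fld _ h1)
      exact ⟨B, c.Q.bose_fld _ h1, n.bose _ (E.bos _ h1), h2, F, _,
        ext_scl t E n (c.Q.bose_fld _ h1) h3 fun _ => h1⟩
    · have h1 := ext_odd t E (Bas.odd (m.mf.1 b) (m.par b))
      refine ⟨Φ b, m.mf.1 b, ⟨n.fld _ h1.1, h1.2⟩, fun _ _ _ => rfl, ?_⟩
      by_cases hb : Q''.bose (e (Φ b))
      · refine ⟨∅, fun _ => e (Φ b), fun _ => ⟨n.fld _ h1.1, id⟩, fun s f v _ hf => ?_⟩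
        have z : G' (e (Φ b) f (G' (Q''.U s GF.one 0 v))) = 0 :=
          (smul_eq_zero.1 ((two_smul ℂ _).trans (add_eq_zero_iff_eq_neg.2
            ((g.bose _ f _ hb hf).symm.trans (h1.2 f _ hf))))).resolve_left two_ne_zero
        rwa [← g.bose _ f _ hb hf, g.inv] at z
      · obtain ⟨F, C, h3⟩ := hF _ (m.mf.1 b)
        exact ⟨F, _, ext_scl t E n (m.mf.1 b) h3 fun a => absurd a hb⟩
  choose Ψ h1 h2 h3 h4 using key
  refine ⟨e (Ψ a), h p k (fun b => e (Ψ b)) a h4 (fun b L f v hL hf => ?_) h2,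
    fun f v hf => EB.STRa.ext_D fun y => ?_⟩
  · rw [n.U]
    exact ext_cov t E one_pos hL (h1 b) h1 (fun g w hg => by
      simp only [← h3 _ _ _ hg, ← h3 _ _ _ (Ap.test_sim one_pos hL 0 hg), m.mf.2 b L g w hL hg])
      hf v
  · obtain ⟨B', -, hA⟩ := c.Q.adj _ (m.mf.1 a)
    rw [E.adj _ B' f v y (m.mf.1 a) hA hf, E.adj _ B' f v y (h1 a)
      (fun g w w' hg => by rw [← h3 _ _ _ hg, hA g w w' hg]) hf]

end ext

theorem final (Q : Theory D) (G : D → D) (T : Ix → Ix → Fld D) (hT : Stress0 Q T)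
    (A : (V → V) → D → D) (hA : ND.PCh Q T A) (hG : MfAll Q) (hF : FSL Q) (hL : NoLog Q T)
    (Γ : Completion D →L[ℂ] Completion D) (N : Set V → VonNeumannAlgebra (Completion D))
    (hN : LNg Q G A Γ N) (hU : L.UVac Q) (hE : EBd Q) :
    ∃ T', Q.IsStress T' ∧ ND.PCh Q T' A ∧
    ∃ (D' : Submodule ℂ (Completion D)) (Q' : Theory D') (G' : D' → D') (e : Fld D → Fld D')
      (L : Fld D'), ExtG Q Γ Q' G' e ∧ AfW N Q' (↑) ∧ Q'.IsStress (fun m n => e (T' m n)) ∧
      Q'.IsScalar L 2 ∧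
      (∀ f v, IsTest f → tr (fun m n => e (T' m n)) f v = (3 : ℂ) • L (box f) v) ∧
      ∀ Q'' : Theory D', IsEnl Q' Q'' → IsImpr Q'' (fun m n => e (T' m n))
        (improve (fun m n => e (T' m n)) L) ∧ ConfAct Q'' (improve (fun m n => e (T' m n)) L) ∧
        (Gr Q'' G' → CFS Q'' G' (improve (fun m n => e (T' m n)) L) ∧
        ∀ B, Q'.fld B → ∃ (n : ℕ) (p : Fin n → Bool) (C : Fin n → Fld D'),
          (∀ i, DescS Q'' G' (improve (fun m n => e (T' m n)) L) (p i) (C i)) ∧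
          ∀ f v, IsTest f → B f v = ∑ i, C i f v) := by
  let c : Cg D := ⟨Q, G, A, Γ, N, hN⟩
  have t := e0_thm c
  obtain ⟨T', a1, a2⟩ := st T hF hL hT hA (c := c)
  obtain ⟨l, hl, D', Q', G', e, L, h1, h0, h2, h3, h4, h5, h6⟩ :=
    fin_thm c a1 a2 hF (md t hG) hU hE
  refine ⟨T', a1, a2, D', Q', G', e, L, h1, h0, h2, h3, h4, fun Q'' n => ?_⟩
  obtain ⟨h7, h8⟩ := scal_row D' Q' _ L h2 h3 h4 Q'' n
  refine ⟨h7, h8, fun g => ?_⟩
  have hT'' := H746.isStress_enl n h2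
  have hL'' := scalar_enl n h3
  let M : D' →ₗ[ℂ] D' :=
    { toFun := G'
      map_add' := fun v w => ext_inner_right ℂ fun y => by simp only [g.herm, inner_add_left]
      map_smul' := fun z v => ext_inner_right ℂ fun y => by
        simp only [g.herm, inner_smul_left, RingHom.id_apply] }
  obtain ⟨S, s1, s2, s3⟩ := hl.mix
  let k : CA.G.Cx D' := ⟨Q'', _, G', isT_of_impr h7 hT'',
    fun m n k l f g v hf hg h => sub_eq_zero.1 (h7.self m n k l f g v hf hg h), h7.cov,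
    ⟨_, hT''.bose o o⟩, g.inv, g.herm, fun m n f v hf => by
      show _ = M _
      simp only [improve, map_add, map_sub, map_smul, map_sum, g.bose _ _ v (hT''.bose m n) hf,
        fun k l => g.bose _ _ v hL''.1 (Ap.test_pd k (Ap.test_pd l hf))]
      rfl, g.GU,
    fun C hC => by
      obtain ⟨C1, C2, a1, a2, e⟩ := g.split C hC
      refine ⟨2, ![1, -1], ![C1, C2], fun j => ?_, fun k v hk => ?_⟩
      · fin_cases j
        exacts [Q''.bose_fld _ a1, a2.1]
      · rw [e k _ hk, g.bose C1 k v a1 hk, a2.2 k v hk, show G' _ = M _ from rfl, map_add, map_neg]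
        simp [M, g.inv],
    g.mul, fun F w hF => by
      have hv : (Q''.vac : Completion D) = c.Om := by rw [n.vac]; exact h1.vac
      have b1 : ∀ f, IsTest f → (L f Q''.vac : Completion D) ∈ S := fun f hf => by
        rw [n.vac, h5 f hf]
        exact s2 f hf
      have b2 : ((smt (improve (fun m n => e (T' m n)) L) F Q''.vac : D') : Completion D) ∈ S := by
        simp only [smt, improve, Submodule.coe_sum, Submodule.coe_add, Submodule.coe_sub,
          Submodule.coe_smul]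
        refine S.sum_mem fun m _ => S.sum_mem fun n _ => ?_
        have hf := (hF m n).isTest
        refine S.sub_mem (S.add_mem ?_ (S.smul_mem _ (b1 _ (Ap.test_pd _ (Ap.test_pd _ hf)))))
          (S.smul_mem _ (S.sum_mem fun k _ => S.smul_mem _ (b1 _ (Ap.test_pd _ (Ap.test_pd _ hf)))))
        rw [h1.agree _ _ _ Q.vac (Q.bose_fld _ (a1.bose m n)) hf hv]
        exact s1 m n _ hf
      have b3 := s3 _ b2 w
      rw [← hv, ← Submodule.coe_inner, ← Submodule.coe_inner] at b3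
      refine b3.congr' (eventually_nhdsWithin_of_forall fun r hr => ?_)
      obtain ⟨p1, p2⟩ := CA.lsc_pos hr
      show inner ℂ _ (Ue _ _ _ _ _) = inner ℂ _ (Q''.U _ _ _ _)
      rw [← h1.U _ _ _ _ p1 p2, n.U]
      rfl⟩
  obtain ⟨x, f0, al⟩ := CA.G.all_thm k
  have tl : CA.G.Tl k := fun _ _ => CA.G.clf k g
  have cf : CFS Q'' G' (improve (fun m n => e (T' m n)) L) := CA.G.cfs' al tl
  refine ⟨cf, fun B hB => ?_⟩
  obtain ⟨m, C, hC, h⟩ := h6 B hB
  have key : ∀ i, ∃ p C', DescS Q'' G' (improve (fun m n => e (T' m n)) L) p C' ∧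
      ∀ f v, IsTest f → C i f v = C' f v := fun i => by
    rcases hC i with h | ⟨p, C', a, b⟩
    · exact ⟨false, L, desc_scal cf hL'', fun _ _ _ => by rw [h]⟩
    · obtain ⟨C'', a1, a2⟩ := desc_cmp t h1 n hF g (CA.G.descM al tl) a
      exact ⟨p, C'', a1, fun f v hf => (b f v hf).trans (a2 f v hf)⟩
  choose p C' b1 b2 using key
  exact ⟨m, p, C', b1, fun f v hf => (h f v).trans
    (Finset.sum_congr rfl fun i _ => b2 i f v hf)⟩

end

end Vale.Agent.P352X.EG.H
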